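import Vale.Agent.P011.H706.C2.HQDef
import Mathlib.Algebra.QuaternionBasis

/-!
# Presentations of a quaternion algebra in characteristic 2 adapted to an element

Twin of `H308/R6P.lean` in the letters `Q2 a b` (`i i = i - a`, `j j = b`, `j i = (1 - i) j`).
-/

namespace Vale.Agent.P011.H552.C2

open Vale.Agent.P011.H477.C2 Vale.Agent.P011.H738 Vale.Agent.P011.H271 Vale.Agent.P011.Hey
open Vale.Agent.P011.H706.C2

section gen

variable {L : Type} [Field L] {a b a0 b0 : L}

theorem tr_add (x y : Q2 a b) : tr (x + y) = tr x + tr y := by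
  simp only [tr, QuaternionAlgebra.re_add, QuaternionAlgebra.imI_add]
  ring

theorem tr_sub (x y : Q2 a b) : tr (x - y) = tr x - tr y := by
  simp only [tr, QuaternionAlgebra.re_sub, QuaternionAlgebra.imI_sub]
  ring

theorem tr_smul (c : L) (x : Q2 a b) : tr (c • x) = c * tr x := by
  simp only [tr, QuaternionAlgebra.re_smul, QuaternionAlgebra.imI_smul, smul_eq_mul]
  ring

theorem tr_alg (c : L) : tr (algebraMap L (Q2 a b) c) = 2 * c := by
  simp [tr, QuaternionAlgebra.algebraMap_eq]

theorem nr_alg (c : L) : nr (algebraMap L (Q2 a b) c) = c ^ 2 := by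
  simp [nr, nf, QuaternionAlgebra.algebraMap_eq]

/-- The conjugation formula. -/
theorem mul_conj (x : Q2 a b) : x * (algebraMap L _ (tr x) - x) = algebraMap L _ (nr x) := by
  ext <;> simp [nr, tr, nf, QuaternionAlgebra.algebraMap_eq] <;> ring

theorem conj_mul (x : Q2 a b) : (algebraMap L _ (tr x) - x) * x = algebraMap L _ (nr x) := by
  ext <;> simp [nr, tr, nf, QuaternionAlgebra.algebraMap_eq] <;> ring

theorem tr_mul_comm (x y : Q2 a b) : tr (x * y) = tr (y * x) := by
  simp only [tr, QuaternionAlgebra.re_mul, QuaternionAlgebra.imI_mul]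
  ring

theorem nr_smul (c : L) (x : Q2 a b) : nr (c • x) = c ^ 2 * nr x := by
  simp only [nr, nf, QuaternionAlgebra.re_smul, QuaternionAlgebra.imI_smul,
    QuaternionAlgebra.imJ_smul, QuaternionAlgebra.imK_smul, smul_eq_mul]
  ring

/-- The data of a presentation. -/
structure Pr (a b : L) (u t : Q2 a0 b0) : Prop where
  uu : u * u = u - algebraMap L _ a
  tt : t * t = algebraMap L _ b
  tu : t * u = t - u * t
  tru : tr u = 1
  trt : tr t = 0

variable {u t : Q2 a0 b0}

/-- The basis. -/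
def Pr.basis (h : Pr a b u t) : QuaternionAlgebra.Basis (Q2 a0 b0) (-a) 1 b where
  i := u
  j := t
  k := u * t
  i_mul_i := by
    rw [h.uu, one_smul, neg_smul, Algebra.algebraMap_eq_smul_one]
    abel
  j_mul_j := by rw [h.tt, Algebra.algebraMap_eq_smul_one]
  i_mul_j := rfl
  j_mul_i := by rw [h.tu, one_smul]

/-- The homomorphism. -/
def Pr.phi (h : Pr a b u t) : Q2 a b →ₐ[L] Q2 a0 b0 := h.basis.liftHom

theorem Pr.phi_apply (h : Pr a b u t) (x : Q2 a b) : h.phi x =
    algebraMap L _ x.re + x.imI • u + x.imJ • t + x.imK • (u * t) := rfl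

theorem Pr.tr_ut (h2 : (2 : L) = 0) (h : Pr a b u t) : tr (u * t) = 0 := by
  have h1 := tr_mul_comm u t
  rw [h.tu, tr_sub, h.trt] at h1
  have h3 : (1 : Q2 a0 b0) = 1 := rfl
  have e : t = u * t + t * u := by rw [h.tu]; abel
  -- `u t = u (u t + t u) = u u t + u t u` and `tr (u t u) = tr (u u t)`
  have h4 : u * t = u * (u * t) + u * t * u := by
    conv_lhs => rw [e]
    rw [mul_add, mul_assoc u t u]
  have h5 : tr (u * t) = tr (u * (u * t)) + tr (u * (u * t)) := by
    conv_lhs => rw [h4]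
    rw [tr_add, tr_mul_comm (u * t) u]
  rw [h5, ← two_mul, h2, zero_mul]

theorem Pr.tr_phi (h2 : (2 : L) = 0) (h : Pr a b u t) (x : Q2 a b) : tr (h.phi x) = tr x := by
  rw [h.phi_apply, tr_add, tr_add, tr_add, tr_alg, tr_smul, tr_smul, tr_smul, h.tru, h.trt,
    h.tr_ut h2, tr]
  ring

theorem Pr.nr_phi (h2 : (2 : L) = 0) (h : Pr a b u t) (x : Q2 a b) : nr (h.phi x) = nr x := by
  have h1 := mul_conj (h.phi x)
  rw [h.tr_phi h2, ← AlgHom.commutes h.phi, ← map_sub, ← map_mul, mul_conj,
    AlgHom.commutes] at h1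
  exact ((algebraMap L (Q2 a0 b0)).injective h1).symm

theorem Pr.key (h2 : (2 : L) = 0) (h : Pr a b u t) (y z : L)
    (h4 : algebraMap L (Q2 a0 b0) y + z • u = 0) : y = 0 ∧ z = 0 := by
  have h5 := congrArg tr h4
  rw [tr_add, tr_alg, tr_smul, h.tru, h2, zero_mul, zero_add, mul_one] at h5
  have h6 : z = 0 := by rw [h5]; simp [tr]
  rw [h6, zero_smul, add_zero] at h4
  exact ⟨(algebraMap L (Q2 a0 b0)).injective (by rw [h4, map_zero]), h6⟩

theorem Pr.injective (h2 : (2 : L) = 0) (hb : b ≠ 0) (h : Pr a b u t) :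
    Function.Injective h.phi := by
  rw [injective_iff_map_eq_zero]
  intro x hx
  have h2' : ∀ z : Q2 a0 b0, z + z = 0 := by
    intro z
    rw [← two_smul L z, h2, zero_smul]
  have hneg : ∀ z : Q2 a0 b0, -z = z := fun z => by
    rw [neg_eq_iff_add_eq_zero]
    exact h2' z
  rw [h.phi_apply] at hx
  -- the commutator with `u`
  have h7 : (algebraMap L (Q2 a0 b0) x.imJ + x.imK • u) * t = 0 := by
    have e1 : u * (algebraMap L (Q2 a0 b0) x.re + x.imI • u + x.imJ • t + x.imK • (u * t)) +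
        (algebraMap L (Q2 a0 b0) x.re + x.imI • u + x.imJ • t + x.imK • (u * t)) * u = 0 := by
      rw [hx, mul_zero, zero_mul, add_zero]
    have e2 : u * (algebraMap L (Q2 a0 b0) x.re + x.imI • u + x.imJ • t + x.imK • (u * t)) +
        (algebraMap L (Q2 a0 b0) x.re + x.imI • u + x.imJ • t + x.imK • (u * t)) * u =
        (algebraMap L (Q2 a0 b0) x.imJ + x.imK • u) * t := by
      have e3 : u * algebraMap L (Q2 a0 b0) x.re + algebraMap L (Q2 a0 b0) x.re * u = 0 := by
        rw [← Algebra.commutes]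
        exact h2' _
      have e4 : u * (x.imI • u) + (x.imI • u) * u = 0 := by
        rw [mul_smul_comm, smul_mul_assoc]
        exact h2' _
      have e5 : u * (x.imJ • t) + (x.imJ • t) * u = x.imJ • t := by
        rw [mul_smul_comm, smul_mul_assoc, ← smul_add, h.tu]
        congr 1
        abel
      have e6 : u * (x.imK • (u * t)) + (x.imK • (u * t)) * u = x.imK • (u * t) := by
        rw [mul_smul_comm, smul_mul_assoc, ← smul_add, mul_assoc u t u, h.tu, mul_sub]
        congr 1
        abel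
      calc _ = (u * algebraMap L (Q2 a0 b0) x.re + algebraMap L (Q2 a0 b0) x.re * u) +
            (u * (x.imI • u) + (x.imI • u) * u) + (u * (x.imJ • t) + (x.imJ • t) * u) +
            (u * (x.imK • (u * t)) + (x.imK • (u * t)) * u) := by
              simp only [mul_add, add_mul]
              abel
        _ = _ := by
          rw [e3, e4, e5, e6, zero_add, zero_add, add_mul, smul_mul_assoc, ← Algebra.smul_def]
    rw [← e2, e1]
  have h8 : algebraMap L (Q2 a0 b0) x.imJ + x.imK • u = 0 := by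
    have h9 := congrArg (· * t) h7
    simp only [zero_mul, mul_assoc, h.tt] at h9
    rw [← Algebra.commutes, ← Algebra.smul_def, smul_eq_zero] at h9
    exact h9.resolve_left hb
  obtain ⟨e1, e2⟩ := h.key h2 _ _ h8
  rw [e1, e2, zero_smul, zero_smul, add_zero, add_zero] at hx
  obtain ⟨e3, e4⟩ := h.key h2 _ _ hx
  ext
  · exact e3
  · exact e4
  · exact e1
  · exact e2

theorem Pr.surjective (h2 : (2 : L) = 0) (hb : b ≠ 0) (h : Pr a b u t) :
    Function.Surjective h.phi := by
  have h1 : Module.finrank L (Q2 a b) = Module.finrank L (Q2 a0 b0) := by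
    rw [QuaternionAlgebra.finrank_eq_four, QuaternionAlgebra.finrank_eq_four]
  exact (LinearMap.injective_iff_surjective_of_finrank_eq_finrank h1
    (f := h.phi.toLinearMap)).mp (h.injective h2 hb)

theorem disc_ne (h2 : (2 : L) = 0) (a : L) : 1 - 4 * a ≠ 0 := by
  have h4 : (4 : L) = 0 := by
    have : (4 : L) = 2 * 2 := by norm_num
    rw [this, h2, zero_mul]
  rw [h4, zero_mul, sub_zero]
  exact one_ne_zero

/-- Isotropy of the norm form. -/
theorem rep_of_iso (h2 : (2 : L) = 0) {x : Q2 a b} (hx : x ≠ 0) (h : nr x = 0) :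
    ∃ y z : L, nf a y z = b := by
  have hiso : ∀ y z : L, nf a y z = 0 → ¬ (y = 0 ∧ z = 0) → ∃ y z : L, nf a y z = b := by
    intro y z h0 hyz
    have hz : z ≠ 0 := by
      intro hz
      apply hyz
      refine ⟨?_, hz⟩
      have : y ^ 2 = 0 := by
        simp only [nf, hz] at h0
        linear_combination h0
      exact pow_eq_zero_iff two_ne_zero |>.mp this
    refine rep_of_root (disc_ne h2 a) ⟨-(y / z), ?_⟩
    simp only [nf] at h0
    field_simp
    linear_combination h0
  have h1 : nf a x.re x.imI = b * nf a x.imJ x.imK := by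
    rw [nr] at h
    linear_combination h
  by_cases h3 : nf a x.imJ x.imK = 0
  · by_cases h4 : x.imJ = 0 ∧ x.imK = 0
    · refine hiso x.re x.imI (by rw [h1, h3, mul_zero]) ?_
      rintro ⟨e1, e2⟩
      exact hx (QuaternionAlgebra.ext e1 e2 h4.1 h4.2)
    · exact hiso _ _ h3 h4
  · generalize hN : nf a x.imJ x.imK = N at h1 h3
    refine ⟨(x.re * (x.imJ + x.imK) - a * x.imI * (-x.imK)) / N,
      (x.re * (-x.imK) + x.imI * (x.imJ + x.imK) + x.imI * (-x.imK)) / N, ?_⟩
    have e1 : nf a ((x.re * (x.imJ + x.imK) - a * x.imI * (-x.imK)) / N)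
        ((x.re * (-x.imK) + x.imI * (x.imJ + x.imK) + x.imI * (-x.imK)) / N) =
        nf a (x.re * (x.imJ + x.imK) - a * x.imI * (-x.imK))
        (x.re * (-x.imK) + x.imI * (x.imJ + x.imK) + x.imI * (-x.imK)) / N ^ 2 := by
      simp only [nf]
      field_simp
    have e2 : nf a (x.imJ + x.imK) (-x.imK) = N := by
      rw [← hN]
      simp only [nf]
      ring
    rw [e1, ← nf_mul, e2, h1]
    field_simp

theorem Pr.transfer (h2 : (2 : L) = 0) (hb : b ≠ 0) (h : Pr a b u t) :
    (∃ x z : L, nf a0 x z = b0) ↔ ∃ x z : L, nf a x z = b := by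
  constructor
  · rintro ⟨x, z, hxz⟩
    obtain ⟨w, hw⟩ := h.surjective h2 hb ⟨x, z, 1, 0⟩
    refine rep_of_iso h2 (x := w) ?_ ?_
    · rintro rfl
      rw [map_zero] at hw
      have := congrArg QuaternionAlgebra.imJ hw
      simp at this
    · rw [← h.nr_phi h2, hw, nr]
      simp only [nf] at hxz ⊢
      linear_combination hxz
  · rintro ⟨x, z, hxz⟩
    refine rep_of_iso h2 (x := h.phi ⟨x, z, 1, 0⟩) ?_ ?_
    · intro h0
      have h1 := h.injective h2 hb (h0.trans (map_zero h.phi).symm)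
      have := congrArg QuaternionAlgebra.imJ h1
      simp at this
    · rw [h.nr_phi h2, nr]
      simp only [nf] at hxz ⊢
      linear_combination hxz

/-- The presentation with first element `u`. -/
theorem pr_mk (h2 : (2 : L) = 0) {u : Q2 a0 b0} (hu : tr u = 1) (hn : nr u = a) :
    Pr a (b0 + u.imK ^ 2 * b0 ^ 2) u ⟨u.imK * b0, 0, 1, 0⟩ := by
  have h4 : u.imI = 1 := by
    have := hu
    rw [tr, h2, zero_mul, zero_add] at this
    exact this
  have hm1 : (1 : L) + 1 = 0 := by rw [one_add_one_eq_two, h2]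
  refine ⟨?_, ?_, ?_, hu, ?_⟩
  · have := mul_conj u
    rw [hu, hn, map_one, mul_sub, mul_one] at this
    rw [← this]
    abel
  · ext
    · simp [QuaternionAlgebra.algebraMap_eq]
      ring
    · simp [QuaternionAlgebra.algebraMap_eq]
    · simp [QuaternionAlgebra.algebraMap_eq]
      linear_combination u.imK * b0 * h2
    · simp [QuaternionAlgebra.algebraMap_eq]
  · ext
    · simp [h4]
      linear_combination (u.re * u.imK * b0 + b0 * u.imJ) * h2
    · simp [h4]
      linear_combination (u.imK * b0) * h2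
    · simp [h4]
      linear_combination (u.re + u.imJ * u.imK * b0) * h2
    · simp [h4]
      linear_combination (u.imK ^ 2 * b0) * h2
  · simp [tr, h2]

/-- In characteristic 2 an element of norm one with trace zero is one. -/
theorem tr_ne_zero (h2 : (2 : L) = 0) (hA : Ani a0 b0) {y : Q2 a0 b0} (hy : nr y = 1)
    (hy1 : y ≠ 1) : tr y ≠ 0 := by
  intro h0
  apply hy1
  have h1 : nr (y - 1) = 0 := by
    have e : nr (y - 1) = nr y - tr y + 1 := by
      simp only [nr, nf, tr, QuaternionAlgebra.re_sub, QuaternionAlgebra.imI_sub,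
        QuaternionAlgebra.imJ_sub, QuaternionAlgebra.imK_sub, QuaternionAlgebra.re_one,
        QuaternionAlgebra.imI_one, QuaternionAlgebra.imJ_one, QuaternionAlgebra.imK_one]
      ring
    rw [e, hy, h0, sub_zero, one_add_one_eq_two, h2]
  exact sub_eq_zero.mp (hA _ h1)

theorem b0_ne (hA : Ani a0 b0) : b0 ≠ 0 := by
  intro h0
  have h1 := hA ⟨0, 0, 1, 0⟩ (by simp [nr, nf, h0])
  have := congrArg QuaternionAlgebra.imJ h1
  simp at this

/-- The trace one element attached to an element of norm one. -/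
theorem exists_pr (h2 : (2 : L) = 0) (hA : Ani a0 b0) {y : Q2 a0 b0} (hy : nr y = 1)
    (hy1 : y ≠ 1) : tr y ≠ 0 ∧ tr ((tr y)⁻¹ • y) = 1 ∧ nr ((tr y)⁻¹ • y) = (tr y)⁻¹ ^ 2 := by
  have h1 := tr_ne_zero h2 hA hy hy1
  refine ⟨h1, ?_, ?_⟩
  · rw [tr_smul, inv_mul_cancel₀ h1]
  · rw [nr_smul, hy, mul_one]

end gen

/-- **Presentation adapted to an element of norm one**, characteristic 2. -/
theorem exists_pres {F : Type} [Field F] [GFF F] (h2 : (2 : F) = 0) {a0 b0 : F}
    (hA : Ani a0 b0) (y : Q2 a0 b0) (hy : nr y = 1) (hy1 : y ≠ 1) :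
    tr y ≠ 0 ∧ ∃ (b : F) (φ : Q2 ((tr y)⁻¹ ^ 2) b →ₐ[F] Q2 a0 b0), b ≠ 0 ∧
      (∀ x, nr (φ x) = nr x) ∧ (∀ x, tr (φ x) = tr x) ∧ Function.Bijective φ ∧
      φ ⟨0, tr y, 0, 0⟩ = y ∧ Ani ((tr y)⁻¹ ^ 2) b ∧
      ∀ v : Place F, Ram a0 b0 v ↔ Ram ((tr y)⁻¹ ^ 2) b v := by
  obtain ⟨h1, htu, hnu⟩ := exists_pr h2 hA hy hy1
  have hb0 := b0_ne hA
  have hP := pr_mk h2 htu hnu
  generalize hu : (tr y)⁻¹ • y = u at htu hnu hP
  have hb : b0 + u.imK ^ 2 * b0 ^ 2 ≠ 0 := by
    intro hb
    have h3 : nr (⟨u.imK * b0, 0, 1, 0⟩ : Q2 a0 b0) = 0 := by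
      simp only [nr, nf]
      linear_combination hb - b0 * h2
    have := congrArg QuaternionAlgebra.imJ (hA _ h3)
    simp at this
  refine ⟨h1, b0 + u.imK ^ 2 * b0 ^ 2, hP.phi, hb, hP.nr_phi h2, hP.tr_phi h2,
    ⟨hP.injective h2 hb, hP.surjective h2 hb⟩, ?_, ?_, fun v => ?_⟩
  · rw [hP.phi_apply, ← hu]
    simp only [map_zero, zero_smul, zero_add, add_zero]
    rw [smul_smul, mul_inv_cancel₀ h1, one_smul]
  · intro x hx
    apply hP.injective h2 hb
    rw [map_zero]
    exact hA _ (by rw [hP.nr_phi h2, hx])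
  · have h2v : (2 : v.comp) = 0 := by
      have := congrArg (algebraMap F v.comp) h2
      rwa [map_ofNat, map_zero] at this
    have hbv : algebraMap F v.comp (b0 + u.imK ^ 2 * b0 ^ 2) ≠ 0 :=
      (_root_.map_ne_zero _).mpr hb
    have hPv := pr_mk (L := v.comp) (a := algebraMap F v.comp ((tr y)⁻¹ ^ 2))
      (a0 := algebraMap F v.comp a0) (b0 := algebraMap F v.comp b0) h2v
      (u := ⟨algebraMap F v.comp u.re, algebraMap F v.comp u.imI, algebraMap F v.comp u.imJ,
        algebraMap F v.comp u.imK⟩) (by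
        have := congrArg (algebraMap F v.comp) htu
        simpa only [tr, map_add, map_mul, map_one, map_ofNat] using this) (by
        have := congrArg (algebraMap F v.comp) hnu
        simpa only [nr, map_sub, map_mul, nf_map] using this)
    have e : algebraMap F v.comp b0 + algebraMap F v.comp u.imK ^ 2 *
        algebraMap F v.comp b0 ^ 2 = algebraMap F v.comp (b0 + u.imK ^ 2 * b0 ^ 2) := by
      simp only [map_add, map_mul, map_pow]
    have h5 := hPv.transfer h2v (by rw [e]; exact hbv)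
    simp only at h5
    rw [e] at h5
    exact not_congr h5

end Vale.Agent.P011.H552.C2
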